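import Mathlib
import Vale.Agent.P121.Defs
import Vale.Agent.P121.Main

set_option autoImplicit false

namespace Vale.Agent.Results.P121.NoMonge

open MeasureTheory Vale.Agent.P121

/-- There is a Borel probability measure on three-space, absolutely continuous (even with bounded
density and bounded support), with finite Kantorovich value for the three-marginal Coulomb cost,
which admits no optimal Monge plan. -/
theorem result : ∃ μ : Measure (EuclideanSpace ℝ (Fin 3)), IsProbabilityMeasure μ ∧ μ ≪ volume ∧
    (∃ C : NNReal, μ ≤ C • volume) ∧ μ (Metric.closedBall 0 2)ᶜ = 0 ∧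
    kantorovich μ < ⊤ ∧ ¬ HasOptimalMongePlan μ := by
  refine ⟨mu, inferInstance, ?_, mu_le, mu_compl, ?_, not_monge⟩
  · obtain ⟨C, hC⟩ := mu_le
    exact (Measure.absolutelyContinuous_of_le hC).trans Measure.smul_absolutelyContinuous
  · rw [kantorovich_mu]
    exact KK_ne_top.lt_top

end Vale.Agent.Results.P121.NoMonge
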